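import Crest.Agent.Lib.PT.All
import Crest.Prelude.Def_RealEA

/-!
# Codes of gates, formulas and sentences
-/

set_option autoImplicit false

namespace Crest.Agent.R316.Syn

open Crest.Agent.Lib.PT Crest.RealEA

/-! ### Gates -/

/-- Raw gates. -/
abbrev RG : Type := ℤ ⊕ ℕ ⊕ ℕ ⊕ (ℕ × ℕ) ⊕ (ℕ × ℕ) ⊕ (ℕ × ℕ)

/-- A gate as a raw gate. -/
def gcode : AGate → RG
  | .const z => .inl z
  | .varX i => .inr (.inl i)
  | .varY i => .inr (.inr (.inl i))
  | .add a b => .inr (.inr (.inr (.inl (a, b))))
  | .sub a b => .inr (.inr (.inr (.inr (.inl (a, b)))))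
  | .mul a b => .inr (.inr (.inr (.inr (.inr (a, b)))))

/-- A raw gate as a gate. -/
def gdec : RG → AGate
  | .inl z => .const z
  | .inr (.inl i) => .varX i
  | .inr (.inr (.inl i)) => .varY i
  | .inr (.inr (.inr (.inl (a, b)))) => .add a b
  | .inr (.inr (.inr (.inr (.inl (a, b))))) => .sub a b
  | .inr (.inr (.inr (.inr (.inr (a, b))))) => .mul a b

theorem gdec_gcode (g : AGate) : gdec (gcode g) = g := by cases g <;> rfl

theorem gcode_gdec (r : RG) : gcode (gdec r) = r := by
  rcases r with z | i | i | ⟨a, b⟩ | ⟨a, b⟩ | ⟨a, b⟩ <;> rfl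

instance encGate : Enc AGate :=
  Enc.ofInj gcode (Function.LeftInverse.injective gdec_gcode)

theorem enc_gate (g : AGate) : enc g = enc (gcode g) := rfl

theorem sz_gate (g : AGate) : sz g = sz (gcode g) := rfl

instance decGate : Dec AGate :=
  ⟨fun v => gdec (dec v), fun g => by rw [enc_gate, dec_enc, gdec_gcode],
    PT.of_enc_eq (g := fun v : V => (dec v : RG)) Dec.pt fun v => by rw [enc_gate, gcode_gdec]⟩

section
variable {α γ : Type} [Enc α] [Enc γ]

theorem gcode_pt {g : α → AGate} (hg : PT g) : PT fun a => gcode (g a) :=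
  hg.of_enc_eq fun _ => rfl

theorem gate_cases {g : α → AGate} (hg : PT g) {F : α → AGate → γ}
    (h0 : PT fun p : α × ℤ => F p.1 (.const p.2)) (h1 : PT fun p : α × ℕ => F p.1 (.varX p.2))
    (h2 : PT fun p : α × ℕ => F p.1 (.varY p.2))
    (h3 : PT fun p : α × ℕ × ℕ => F p.1 (.add p.2.1 p.2.2))
    (h4 : PT fun p : α × ℕ × ℕ => F p.1 (.sub p.2.1 p.2.2))
    (h5 : PT fun p : α × ℕ × ℕ => F p.1 (.mul p.2.1 p.2.2)) : PT fun a => F a (g a) := by
  have k4 : PT fun p : α × ((ℕ × ℕ) ⊕ (ℕ × ℕ)) =>
      Sum.elim (fun q : ℕ × ℕ => F p.1 (.sub q.1 q.2)) (fun q : ℕ × ℕ => F p.1 (.mul q.1 q.2))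
        p.2 :=
    PT.sum_elim PT.id.snd (h4.comp_eq (fun p => (p.1.1, p.2)) (by fun_prop))
      (h5.comp_eq (fun p => (p.1.1, p.2)) (by fun_prop))
  have k3 : PT fun p : α × ((ℕ × ℕ) ⊕ (ℕ × ℕ) ⊕ (ℕ × ℕ)) =>
      Sum.elim (fun q : ℕ × ℕ => F p.1 (.add q.1 q.2))
        (Sum.elim (fun q : ℕ × ℕ => F p.1 (.sub q.1 q.2)) (fun q : ℕ × ℕ => F p.1 (.mul q.1 q.2)))
        p.2 :=
    PT.sum_elim PT.id.snd (h3.comp_eq (fun p => (p.1.1, p.2)) (by fun_prop))
      (k4.comp_eq (fun p => (p.1.1, p.2)) (by fun_prop))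
  have k2 : PT fun p : α × (ℕ ⊕ (ℕ × ℕ) ⊕ (ℕ × ℕ) ⊕ (ℕ × ℕ)) =>
      Sum.elim (fun i => F p.1 (.varY i)) (Sum.elim (fun q : ℕ × ℕ => F p.1 (.add q.1 q.2))
        (Sum.elim (fun q : ℕ × ℕ => F p.1 (.sub q.1 q.2)) (fun q : ℕ × ℕ => F p.1 (.mul q.1 q.2))))
        p.2 :=
    PT.sum_elim PT.id.snd (h2.comp_eq (fun p => (p.1.1, p.2)) (by fun_prop))
      (k3.comp_eq (fun p => (p.1.1, p.2)) (by fun_prop))
  have k1 : PT fun p : α × (ℕ ⊕ ℕ ⊕ (ℕ × ℕ) ⊕ (ℕ × ℕ) ⊕ (ℕ × ℕ)) =>
      Sum.elim (fun i => F p.1 (.varX i)) (Sum.elim (fun i => F p.1 (.varY i))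
        (Sum.elim (fun q : ℕ × ℕ => F p.1 (.add q.1 q.2))
        (Sum.elim (fun q : ℕ × ℕ => F p.1 (.sub q.1 q.2)) (fun q : ℕ × ℕ => F p.1 (.mul q.1 q.2)))))
        p.2 :=
    PT.sum_elim PT.id.snd (h1.comp_eq (fun p => (p.1.1, p.2)) (by fun_prop))
      (k2.comp_eq (fun p => (p.1.1, p.2)) (by fun_prop))
  have k0 : PT fun a : α =>
      Sum.elim (fun z => F a (.const z)) (Sum.elim (fun i => F a (.varX i))
        (Sum.elim (fun i => F a (.varY i)) (Sum.elim (fun q : ℕ × ℕ => F a (.add q.1 q.2))
        (Sum.elim (fun q : ℕ × ℕ => F a (.sub q.1 q.2)) (fun q : ℕ × ℕ => F a (.mul q.1 q.2))))))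
        (gcode (g a)) :=
    PT.sum_elim (gcode_pt hg) h0 k1
  exact k0.of_eq fun a => by cases g a <;> rfl

theorem const_pt {z : α → ℤ} (hz : PT z) : PT fun a => AGate.const (z a) :=
  (hz.inl (γ := ℕ ⊕ ℕ ⊕ (ℕ × ℕ) ⊕ (ℕ × ℕ) ⊕ (ℕ × ℕ))).of_enc_eq fun _ => rfl

@[fun_prop] theorem toNats_pt {g : α → AGate} (hg : PT g) : PT fun a => (g a).toNats :=
  gate_cases (F := fun _ g => g.toNats) hg (by simp only [AGate.toNats]; fun_prop)
    (by simp only [AGate.toNats]; fun_prop) (by simp only [AGate.toNats]; fun_prop)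
    (by simp only [AGate.toNats]; fun_prop) (by simp only [AGate.toNats]; fun_prop)
    (by simp only [AGate.toNats]; fun_prop)

@[fun_prop] theorem gateWF_pt {r s t : α → ℕ} {g : α → AGate} (hr : PT r) (hs : PT s) (ht : PT t)
    (hg : PT g) : PT fun a => (g a).WF (r a) (s a) (t a) :=
  gate_cases (F := fun a g => g.WF (r a) (s a) (t a)) hg (by simp only [AGate.WF]; fun_prop)
    (by simp only [AGate.WF]; fun_prop) (by simp only [AGate.WF]; fun_prop)
    (by simp only [AGate.WF]; fun_prop) (by simp only [AGate.WF]; fun_prop)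
    (by simp only [AGate.WF]; fun_prop)

@[fun_prop] theorem circuitToNats_pt {c : α → List AGate} (hc : PT c) :
    PT fun a => circuitToNats (c a) := by
  unfold circuitToNats; fun_prop

theorem circuitWF_iff (r s : ℕ) (c : List AGate) :
    CircuitWF r s c ↔ c ≠ [] ∧ ∀ t < c.length, (c.getD t (.const 0)).WF r s t := by
  unfold CircuitWF
  refine and_congr_right fun _ => ⟨fun h t ht => ?_, fun h t => ?_⟩
  · have := h ⟨t, ht⟩
    simpa [List.getD_eq_getElem?_getD, ht] using this
  · have := h t t.2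
    simpa [List.getD_eq_getElem?_getD] using this

@[fun_prop] theorem circuitWF_pt {r s : α → ℕ} {c : α → List AGate} (hr : PT r) (hs : PT s)
    (hc : PT c) : PT fun a => CircuitWF (r a) (s a) (c a) :=
  (PT.and (by fun_prop) (PT.ball_lt (by fun_prop) (by fun_prop) (by fun_prop))).of_iff
    fun a => (circuitWF_iff _ _ _).symm

@[fun_prop] theorem natBits_pt {n : α → ℕ} (hn : PT n) : PT fun a => RealEA.natBits (n a) := by
  unfold RealEA.natBits; fun_prop

end

/-! ### Tokens and the stack machine -/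

/-- Atoms: the kind (`true` for `0 < p`) and the circuit. -/
abbrev Atom : Type := Bool × List AGate

/-- Tokens: atoms, negation (`none`), conjunction (`some false`), disjunction (`some true`). -/
abbrev Tok : Type := Atom ⊕ Option Bool

/-- Prefix notation. -/
def flat : Form → List Tok
  | .eqZero c => [.inl (false, c)]
  | .pos c => [.inl (true, c)]
  | .and φ ψ => .inr (some false) :: (flat φ ++ flat ψ)
  | .or φ ψ => .inr (some true) :: (flat φ ++ flat ψ)
  | .not φ => .inr none :: flat φ

/-- One step of the stack machine. -/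
def step {A₀ A : Type} (atm : A₀ → A) (ng : A → A) (op : Bool → A → A → A) (d : A)
    (t : A₀ ⊕ Option Bool) (st : List A) : List A :=
  Sum.elim (fun c => atm c :: st) (fun o : Option Bool => o.elim (ng (st.headD d) :: st.tail)
    fun b => op b (st.headD d) (st.tail.headD d) :: st.tail.tail) t

/-- Recursive evaluation of a formula. -/
def fev {A : Type} (atm : Atom → A) (ng : A → A) (op : Bool → A → A → A) : Form → A
  | .eqZero c => atm (false, c)
  | .pos c => atm (true, c)
  | .and φ ψ => op false (fev atm ng op φ) (fev atm ng op ψ)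
  | .or φ ψ => op true (fev atm ng op φ) (fev atm ng op ψ)
  | .not φ => ng (fev atm ng op φ)

theorem foldr_flat {A : Type} (atm : Atom → A) (ng : A → A) (op : Bool → A → A → A) (d : A)
    (φ : Form) : ∀ st : List A,
    (flat φ).foldr (step atm ng op d) st = fev atm ng op φ :: st := by
  induction φ with
  | eqZero c => intro st; rfl
  | pos c => intro st; rfl
  | and φ ψ h1 h2 => intro st; rw [flat, List.foldr_cons, List.foldr_append, h2, h1]; rfl
  | or φ ψ h1 h2 => intro st; rw [flat, List.foldr_cons, List.foldr_append, h2, h1]; rfl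
  | not φ h1 => intro st; rw [flat, List.foldr_cons, h1]; rfl

/-- The atom formulas. -/
def atmF (c : Atom) : Form := bif c.1 then .pos c.2 else .eqZero c.2

/-- The binary connectives. -/
def opF (b : Bool) (φ ψ : Form) : Form := bif b then .or φ ψ else .and φ ψ

theorem fev_form (φ : Form) : fev atmF Form.not opF φ = φ := by
  induction φ with
  | eqZero c => rfl
  | pos c => rfl
  | and φ ψ h1 h2 => rw [fev, h1, h2]; rfl
  | or φ ψ h1 h2 => rw [fev, h1, h2]; rfl
  | not φ h1 => rw [fev, h1]

/-- The total parser. -/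
def parse (l : List Tok) : Form :=
  (l.foldr (step atmF Form.not opF (.eqZero [])) []).headD (.eqZero [])

theorem parse_flat (φ : Form) : parse (flat φ) = φ := by
  rw [parse, foldr_flat, fev_form]; rfl

/-- The parser on the level of token lists. -/
def nstep : Tok → List (List Tok) → List (List Tok) :=
  step (fun c => [Sum.inl c]) (fun x => Sum.inr none :: x)
    (fun b x y => Sum.inr (some b) :: (x ++ y)) [Sum.inl (false, [])]

theorem map_flat_step (t : Tok) (st : List Form) :
    (step atmF Form.not opF (.eqZero []) t st).map flat = nstep t (st.map flat) := by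
  rcases t with ⟨_ | _, c⟩ | _ | _ | _ <;> rcases st with _ | ⟨x, _ | ⟨y, st⟩⟩ <;> rfl

theorem flat_parse (l : List Tok) :
    flat (parse l) = (l.foldr nstep []).headD [Sum.inl (false, [])] := by
  have : (l.foldr (step atmF Form.not opF (.eqZero [])) []).map flat = l.foldr nstep [] := by
    induction l with
    | nil => rfl
    | cons t l ih => rw [List.foldr_cons, map_flat_step, ih]; rfl
  rw [← this, parse]
  cases l.foldr (step atmF Form.not opF (.eqZero [])) [] <;> rfl

theorem flat_parse_pt : PT fun l : List Tok => flat (parse l) := by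
  refine PT.of_eq (PT.headD (PT.foldr_grow (f := fun _ => nstep) PT.id (PT.const [])
    (by unfold nstep step; fun_prop) (G := fun p => sz p.2 + 40) (by fun_prop) ?_)
    (PT.const [Sum.inl (false, [])])) fun l => (flat_parse l).symm
  have hf : sz false = 1 := rfl
  rintro a (c | _ | b) (_ | ⟨x, _ | ⟨y, st⟩⟩) _
  all_goals simp [nstep, step, hf]
  all_goals first
    | omega
    | (have := sz_append x y; omega)
    | (have := sz_append x [(Sum.inl (false, []) : Tok)]
       simp only [sz_cons, sz_inl, sz_mk, sz_nil, hf] at this; omega)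

/-! ### Sentences -/

/-- The raw code of a sentence. -/
def scode (S : Sentence) : ℕ × ℕ × List Tok := (S.r, S.s, flat S.body)

/-- The total decoder of sentences. -/
def sdec (x : ℕ × ℕ × List Tok) : Sentence := ⟨x.1, x.2.1, parse x.2.2⟩

theorem sdec_scode (S : Sentence) : sdec (scode S) = S := by
  cases S; simp [sdec, scode, parse_flat]

instance encSentence : Enc Sentence :=
  Enc.ofInj scode (Function.LeftInverse.injective sdec_scode)

theorem enc_sentence (S : Sentence) : enc S = enc (scode S) := rfl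

theorem scode_pt : PT scode := PT.of_enc fun _ => rfl

instance decSentence : Dec Sentence :=
  ⟨fun v => sdec (dec v), fun S => by rw [enc_sentence, dec_enc, sdec_scode],
    PT.of_enc_eq (g := fun v : V => ((dec v : ℕ × ℕ × List Tok).1, (dec v : ℕ × ℕ × List Tok).2.1,
      flat (parse (dec v : ℕ × ℕ × List Tok).2.2)))
      (PT.pair (by fun_prop) (PT.pair (by fun_prop) (flat_parse_pt.comp (by fun_prop))))
      fun _ => rfl⟩

theorem r_pt : PT Sentence.r := scode_pt.fst
theorem s_pt : PT Sentence.s := scode_pt.snd.fst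
theorem toks_pt : PT fun S : Sentence => flat S.body := scode_pt.snd.snd

/-- A token as a list of numbers. -/
def tokNats (t : Tok) : List ℕ :=
  Sum.elim (fun c : Atom => (bif c.1 then 7 else 6) :: circuitToNats c.2)
    (fun o : Option Bool => [o.elim 10 fun b => bif b then 9 else 8]) t

theorem toNats_eq (φ : Form) : φ.toNats = (flat φ).flatMap tokNats := by
  induction φ with
  | eqZero c => simp [Form.toNats, flat, tokNats]
  | pos c => simp [Form.toNats, flat, tokNats]
  | and φ ψ h1 h2 => simp [Form.toNats, flat, tokNats, h1, h2]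
  | or φ ψ h1 h2 => simp [Form.toNats, flat, tokNats, h1, h2]
  | not φ h1 => simp [Form.toNats, flat, tokNats, h1]

theorem sentToNats_pt : PT Sentence.toNats := by
  have h1 := r_pt
  have h2 := s_pt
  have h3 := toks_pt
  refine PT.of_eq (g := fun S : Sentence => S.r :: S.s :: (flat S.body).flatMap tokNats) ?_
    fun S => by rw [Sentence.toNats, toNats_eq]
  refine h1.cons (h2.cons (PT.flatMap (f := fun _ => tokNats) h3 ?_))
  unfold tokNats; fun_prop

theorem encode_pt : PT Sentence.encode :=
  PT.flatMap (f := fun _ => RealEA.natBits) sentToNats_pt (by fun_prop)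

theorem wf_iff (r s : ℕ) (φ : Form) :
    φ.WF r s ↔ ∀ t ∈ flat φ, Sum.elim (fun c : Atom => CircuitWF r s c.2) (fun _ => True) t := by
  induction φ with
  | eqZero c => simp [Form.WF, flat]
  | pos c => simp [Form.WF, flat]
  | and φ ψ h1 h2 =>
    simp only [Form.WF, flat, h1, h2, List.forall_mem_cons, List.forall_mem_append, Sum.elim_inr,
      true_and]
  | or φ ψ h1 h2 =>
    simp only [Form.WF, flat, h1, h2, List.forall_mem_cons, List.forall_mem_append, Sum.elim_inr,
      true_and]
  | not φ h1 => simp only [Form.WF, flat, h1, List.forall_mem_cons, Sum.elim_inr, true_and]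

theorem wf_pt : PT Sentence.WF := by
  have h1 := r_pt
  have h2 := s_pt
  refine (PT.ball (q := fun (S : Sentence) t =>
    Sum.elim (fun c : Atom => CircuitWF S.r S.s c.2) (fun _ => True) t) toks_pt ?_).of_iff
    fun S => (wf_iff _ _ _).symm
  fun_prop

/-! ### Sizes -/

/-- Length of the bit string of a list of numbers. -/
def W (l : List ℕ) : ℕ := (l.flatMap RealEA.natBits).length

@[simp] theorem W_nil : W [] = 0 := rfl

theorem W_cons (n : ℕ) (l : List ℕ) : W (n :: l) = 2 * n.size + 2 + W l := by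
  have : ∀ b : List Bool, (b.flatMap fun d => [true, d]).length = 2 * b.length := fun b => by
    induction b with
    | nil => rfl
    | cons x b ih => simp at ih ⊢; omega
  simp only [W, List.flatMap_cons, List.length_append, RealEA.natBits, this, Nat.size_eq_bits_len]
  rfl

theorem W_append (l l' : List ℕ) : W (l ++ l') = W l + W l' := by simp [W]

theorem sz_gate_le (g : AGate) : sz g + 1 ≤ 10 * W g.toNats := by
  rw [sz_gate]
  cases g with
  | const z =>
    have := sz_int_le z
    have := sz_nat_le z.natAbs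
    simp [gcode, AGate.toNats, W_cons]; omega
  | varX i => have := sz_nat_le i; simp [gcode, AGate.toNats, W_cons]; omega
  | varY i => have := sz_nat_le i; simp [gcode, AGate.toNats, W_cons]; omega
  | add a b => have := sz_nat_le a; have := sz_nat_le b; simp [gcode, AGate.toNats, W_cons]; omega
  | sub a b => have := sz_nat_le a; have := sz_nat_le b; simp [gcode, AGate.toNats, W_cons]; omega
  | mul a b => have := sz_nat_le a; have := sz_nat_le b; simp [gcode, AGate.toNats, W_cons]; omega

theorem sz_list_le_W {β : Type} [Enc β] (f : β → List ℕ) (h : ∀ b, sz b + 1 ≤ 10 * W (f b))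
    (l : List β) : sz l ≤ 10 * W (l.flatMap f) + 1 := by
  induction l with
  | nil => simp
  | cons b l ih => have := h b; simp [W_append]; omega

theorem sz_tok_le (t : Tok) : sz t + 1 ≤ 10 * W (tokNats t) := by
  rcases t with ⟨b, c⟩ | _ | b
  · have := sz_list_le_W _ sz_gate_le c
    have := sz_bool_le b
    simp only [tokNats, circuitToNats, W_cons, Sum.elim_inl, sz_inl, sz_mk]; omega
  · simp [tokNats, W_cons]; omega
  · have := sz_bool_le b
    simp only [tokNats, W_cons, Sum.elim_inr, sz_inr, sz_some]; omega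

theorem sz_sentence_le (S : Sentence) : sz S ≤ 10 * (S.encode.length + 1) := by
  have h1 : sz S = sz S.r + (sz S.s + sz (flat S.body) + 1) + 1 := rfl
  have h2 : S.encode.length = W S.toNats := rfl
  have := sz_list_le_W _ sz_tok_le (flat S.body)
  have := sz_nat_le S.r
  have := sz_nat_le S.s
  rw [h1, h2, Sentence.toNats, toNats_eq, W_cons, W_cons]; omega

end Crest.Agent.R316.Syn
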