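import Crest.Agent.R316.Cls
import Crest.Agent.R316.Syntax.Code

/-!
# The polynomials of circuits form a uniform family
-/

set_option autoImplicit false

namespace Crest.Agent.R316.Syn

open Crest.Agent.Lib.PT Crest.RealEA MvPolynomial

/-! ### Circuits over a commutative ring -/

section ring

variable {R R' : Type} [CommRing R] [CommRing R']

/-- The value of a gate. -/
def gv (x y : ℕ → R) (prev : List R) : AGate → R
  | .const z => z
  | .varX i => x i
  | .varY i => y i
  | .add a b => prev.getD a 0 + prev.getD b 0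
  | .sub a b => prev.getD a 0 - prev.getD b 0
  | .mul a b => prev.getD a 0 * prev.getD b 0

/-- The values of all gates. -/
def gvs (x y : ℕ → R) (c : List AGate) : List R :=
  c.foldl (fun prev g => prev ++ [gv x y prev g]) []

/-- The value of a circuit. -/
def cv (x y : ℕ → R) (c : List AGate) : R := (gvs x y c).getLastD 0

theorem gvs_concat (x y : ℕ → R) (c : List AGate) (g : AGate) :
    gvs x y (c ++ [g]) = gvs x y c ++ [gv x y (gvs x y c) g] := by
  simp [gvs]

theorem value_eq (x y : ℕ → ℝ) (prev : List ℝ) (g : AGate) : g.value x y prev = gv x y prev g := by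
  cases g <;> rfl

theorem circuitValue_eq (x y : ℕ → ℝ) (c : List AGate) : circuitValue x y c = cv x y c := by
  simp only [circuitValue, circuitValues, value_eq]; rfl

theorem getD_map_zero {A B : Type} [Zero A] [Zero B] (φ : A → B) (h : φ 0 = 0) (l : List A)
    (a : ℕ) : (l.map φ).getD a 0 = φ (l.getD a 0) := by
  simp only [List.getD_eq_getElem?_getD, List.getElem?_map]
  cases l[a]? <;> simp [h]

theorem getLastD_map_zero {A B : Type} [Zero A] [Zero B] (φ : A → B) (h : φ 0 = 0) (l : List A) :
    (l.map φ).getLastD 0 = φ (l.getLastD 0) := by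
  simp only [List.getLastD_eq_getLast?, List.getLast?_map]
  cases l.getLast? <;> simp [h]

theorem map_gv (φ : R →+* R') (x y : ℕ → R) (prev : List R) (g : AGate) :
    φ (gv x y prev g) = gv (fun i => φ (x i)) (fun i => φ (y i)) (prev.map φ) g := by
  cases g <;> simp only [gv, getD_map_zero φ (map_zero φ), map_add, map_sub, map_mul, map_intCast]

theorem map_gvs (φ : R →+* R') (x y : ℕ → R) (c : List AGate) :
    (gvs x y c).map φ = gvs (fun i => φ (x i)) (fun i => φ (y i)) c := by
  induction c using List.reverseRecOn with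
  | nil => rfl
  | append_singleton c g ih => rw [gvs_concat, gvs_concat, List.map_append, ← ih, ← map_gv]; rfl

theorem map_cv (φ : R →+* R') (x y : ℕ → R) (c : List AGate) :
    φ (cv x y c) = cv (fun i => φ (x i)) (fun i => φ (y i)) c := by
  rw [cv, cv, ← map_gvs, getLastD_map_zero φ (map_zero φ)]

/-- Two circuits whose gates act in the same way have the same values. -/
theorem gvs_map (x y x' y' : ℕ → R) (f : AGate → AGate) (c : List AGate)
    (h : ∀ g ∈ c, ∀ prev, gv x' y' prev (f g) = gv x y prev g) :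
    gvs x' y' (c.map f) = gvs x y c := by
  induction c using List.reverseRecOn with
  | nil => rfl
  | append_singleton c g ih =>
    rw [List.map_append, List.map_singleton, gvs_concat, gvs_concat,
      ih fun g hg => h g (by simp [hg]), h g (by simp)]

theorem cv_congr {x y x' y' : ℕ → R} {c : List AGate} (hx : ∀ i, AGate.varX i ∈ c → x' i = x i)
    (hy : ∀ i, AGate.varY i ∈ c → y' i = y i) : cv x' y' c = cv x y c := by
  have := gvs_map x y x' y' id c fun g hg prev => by
    cases g with
    | varX i => exact hx i hg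
    | varY i => exact hy i hg
    | _ => rfl
  rw [List.map_id] at this
  rw [cv, cv, this]

end ring

/-! ### The norm -/

section nrm

variable {σ : Type}

theorem nrm_eq_sum (P : MvPolynomial σ ℤ) {s : Finset (σ →₀ ℕ)} (h : P.support ⊆ s) :
    nrm P = ∑ m ∈ s, (P.coeff m).natAbs :=
  Finset.sum_subset h fun m _ hm => by simpa using hm

theorem nrm_zero : nrm (0 : MvPolynomial σ ℤ) = 0 := by simp [nrm]

theorem nrm_add (P Q : MvPolynomial σ ℤ) : nrm (P + Q) ≤ nrm P + nrm Q := by
  classical
  rw [nrm_eq_sum (P + Q) support_add, nrm_eq_sum P Finset.subset_union_left,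
    nrm_eq_sum Q Finset.subset_union_right, ← Finset.sum_add_distrib]
  exact Finset.sum_le_sum fun m _ => by rw [coeff_add]; exact Int.natAbs_add_le _ _

theorem nrm_neg (P : MvPolynomial σ ℤ) : nrm (-P) = nrm P := by
  simp [nrm]

theorem nrm_sub (P Q : MvPolynomial σ ℤ) : nrm (P - Q) ≤ nrm P + nrm Q := by
  rw [sub_eq_add_neg, ← nrm_neg Q]; exact nrm_add _ _

theorem nrm_sum {ι : Type} (s : Finset ι) (f : ι → MvPolynomial σ ℤ) :
    nrm (∑ i ∈ s, f i) ≤ ∑ i ∈ s, nrm (f i) := by
  classical
  induction s using Finset.induction_on with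
  | empty => simp [nrm_zero]
  | insert a s ha ih =>
    rw [Finset.sum_insert ha, Finset.sum_insert ha]
    exact (nrm_add _ _).trans (Nat.add_le_add_left ih _)

theorem nrm_monomial (m : σ →₀ ℕ) (a : ℤ) : nrm (monomial m a) = a.natAbs := by
  classical
  rw [nrm_eq_sum _ (support_monomial_subset (s := m) (a := a))]
  simp

theorem nrm_mul (P Q : MvPolynomial σ ℤ) : nrm (P * Q) ≤ nrm P * nrm Q := by
  conv_lhs => rw [P.as_sum, Q.as_sum, Finset.sum_mul_sum]
  refine (nrm_sum _ _).trans ?_
  rw [nrm, nrm, Finset.sum_mul_sum]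
  refine Finset.sum_le_sum fun m _ => (nrm_sum _ _).trans (Finset.sum_le_sum fun n _ => ?_)
  rw [monomial_mul, nrm_monomial, Int.natAbs_mul]

theorem nrm_X (i : σ) : nrm (X i : MvPolynomial σ ℤ) = 1 := by
  rw [X, nrm_monomial]; rfl

theorem nrm_intCast (z : ℤ) : nrm (z : MvPolynomial σ ℤ) = z.natAbs := by
  rw [← eq_intCast (C : ℤ →+* MvPolynomial σ ℤ), C_apply, nrm_monomial]

/-- Degree at most `2 ^ k` and norm at most `2 ^ 2 ^ k`. -/
def Small (k : ℕ) (P : MvPolynomial σ ℤ) : Prop := P.totalDegree ≤ 2 ^ k ∧ nrm P ≤ 2 ^ 2 ^ k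

theorem Small.mono {k k' : ℕ} {P : MvPolynomial σ ℤ} (h : Small k P) (hk : k ≤ k') :
    Small k' P :=
  ⟨h.1.trans (Nat.pow_le_pow_right (by omega) hk),
    h.2.trans (Nat.pow_le_pow_right (by omega) (Nat.pow_le_pow_right (by omega) hk))⟩

theorem small_zero (k : ℕ) : Small k (0 : MvPolynomial σ ℤ) := by simp [Small, nrm_zero]

theorem small_X (k : ℕ) (i : σ) : Small k (X i : MvPolynomial σ ℤ) :=
  ⟨by rw [totalDegree_X]; exact Nat.one_le_two_pow, by rw [nrm_X]; exact Nat.one_le_two_pow⟩

theorem two_mul_le (k : ℕ) : 2 ^ 2 ^ k + 2 ^ 2 ^ k ≤ 2 ^ 2 ^ (k + 1) := by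
  have h : 2 ^ k + 1 ≤ 2 ^ (k + 1) := by
    have := Nat.one_le_two_pow (n := k)
    rw [pow_succ]; omega
  calc 2 ^ 2 ^ k + 2 ^ 2 ^ k = 2 ^ (2 ^ k + 1) := by rw [pow_succ]; omega
    _ ≤ _ := Nat.pow_le_pow_right (by omega) h

theorem Small.add {k : ℕ} {P Q : MvPolynomial σ ℤ} (hP : Small k P) (hQ : Small k Q) :
    Small (k + 1) (P + Q) :=
  ⟨(totalDegree_add _ _).trans (max_le (hP.mono (by omega)).1 (hQ.mono (by omega)).1),
    (nrm_add _ _).trans ((add_le_add hP.2 hQ.2).trans (two_mul_le k))⟩

theorem Small.sub {k : ℕ} {P Q : MvPolynomial σ ℤ} (hP : Small k P) (hQ : Small k Q) :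
    Small (k + 1) (P - Q) :=
  ⟨(totalDegree_sub _ _).trans (max_le (hP.mono (by omega)).1 (hQ.mono (by omega)).1),
    (nrm_sub _ _).trans ((add_le_add hP.2 hQ.2).trans (two_mul_le k))⟩

theorem Small.mul {k : ℕ} {P Q : MvPolynomial σ ℤ} (hP : Small k P) (hQ : Small k Q) :
    Small (k + 1) (P * Q) :=
  ⟨(totalDegree_mul _ _).trans ((add_le_add hP.1 hQ.1).trans (by rw [pow_succ]; omega)),
    (nrm_mul _ _).trans ((Nat.mul_le_mul hP.2 hQ.2).trans
      (by rw [← pow_add, pow_succ 2 k, mul_two]))⟩

theorem small_getD {k : ℕ} {l : List (MvPolynomial σ ℤ)} (h : ∀ P ∈ l, Small k P) (a : ℕ) :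
    Small k (l.getD a 0) := by
  rw [List.getD_eq_getElem?_getD]
  cases e : l[a]? with
  | none => exact small_zero k
  | some P => exact h P (List.mem_of_getElem? e)

theorem small_gvs (u v : ℕ → σ) (c : List AGate) :
    ∀ P ∈ gvs (fun i => (X (u i) : MvPolynomial σ ℤ)) (fun i => X (v i)) c, Small (sz c) P := by
  induction c using List.reverseRecOn with
  | nil => simp [gvs]
  | append_singleton c g ih =>
    have h1 : sz (c ++ [g]) = sz c + sz g + 1 := by
      have := sz_append c [g]
      simp only [sz_cons, sz_nil] at this; omega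
    intro P hP
    rw [gvs_concat, List.mem_append, List.mem_singleton] at hP
    rcases hP with hP | rfl
    · exact (ih P hP).mono (by omega)
    · cases g with
      | const z =>
        refine ⟨?_, ?_⟩
        · rw [gv, ← eq_intCast (C : ℤ →+* MvPolynomial σ ℤ), totalDegree_C]; exact Nat.zero_le _
        · rw [gv, nrm_intCast]
          have h2 : sz (AGate.const z) = sz z + 2 := by rw [sz_gate, gcode, sz_inl]
          refine (natAbs_lt_two_pow_sz z).le.trans (Nat.pow_le_pow_right (by omega) ?_)
          exact le_trans (by omega) Nat.lt_two_pow_self.le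
      | varX i => exact small_X _ _
      | varY i => exact small_X _ _
      | add a b => exact ((small_getD ih a).add (small_getD ih b)).mono (by omega)
      | sub a b => exact ((small_getD ih a).sub (small_getD ih b)).mono (by omega)
      | mul a b => exact ((small_getD ih a).mul (small_getD ih b)).mono (by omega)

theorem small_cv (u v : ℕ → σ) (c : List AGate) :
    Small (sz c) (cv (fun i => (X (u i) : MvPolynomial σ ℤ)) (fun i => X (v i)) c) := by
  rw [cv, List.getLastD_eq_getLast?]
  cases e : (gvs (fun i => (X (u i) : MvPolynomial σ ℤ)) (fun i => X (v i)) c).getLast? with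
  | none => exact small_zero _
  | some P => exact small_gvs u v c P (List.mem_of_getLast? e)

end nrm

/-! ### Evaluation of variable-free circuits modulo a number -/

/-- The residue of a gate modulo `m + 1`. -/
def mgv (m : ℕ) (prev : List ℕ) (g : AGate) : ℕ :=
  (gv (fun _ => (0 : ℤ)) (fun _ => 0) (prev.map fun n : ℕ => (n : ℤ)) g % ((m + 1 : ℕ) : ℤ)).toNat

/-- The residues of all gates modulo `m + 1`. -/
def mgvs (m : ℕ) (c : List AGate) : List ℕ := c.foldl (fun prev g => prev ++ [mgv m prev g]) []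

theorem mgv_le (m : ℕ) (prev : List ℕ) (g : AGate) : mgv m prev g ≤ m := by
  unfold mgv
  generalize gv (fun _ => (0 : ℤ)) (fun _ => 0) (prev.map fun n : ℕ => (n : ℤ)) g = z
  have := Int.emod_lt_of_pos z (b := ((m + 1 : ℕ) : ℤ)) (by omega)
  omega

theorem mgv_pt {α : Type} [Enc α] {m : α → ℕ} {prev : α → List ℕ} {g : α → AGate} (hm : PT m)
    (hp : PT prev) (hg : PT g) : PT fun a => mgv (m a) (prev a) (g a) := by
  have h : PT fun a =>
      gv (fun _ => (0 : ℤ)) (fun _ => 0) ((prev a).map fun n : ℕ => (n : ℤ)) (g a) :=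
    gate_cases (F := fun a g =>
      gv (fun _ => (0 : ℤ)) (fun _ => 0) ((prev a).map fun n : ℕ => (n : ℤ)) g) hg
      (by simp only [gv, Int.cast_id]; fun_prop) (by simp only [gv]; fun_prop)
      (by simp only [gv]; fun_prop) (by simp only [gv]; fun_prop)
      (by simp only [gv]; fun_prop) (by simp only [gv]; fun_prop)
  unfold mgv
  fun_prop

theorem mgvs_pt : PT fun q : ℕ × List AGate => mgvs q.1 q.2 := by
  refine PT.foldl_grow (f := fun (q : ℕ × List AGate) prev g => prev ++ [mgv q.1 prev g])
    PT.id.snd (PT.const [])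
    (PT.append (by fun_prop) (PT.cons (mgv_pt (by fun_prop) (by fun_prop) (by fun_prop))
      (PT.const []))) (G := fun p => 2 * sz p.1.1 + 1) (by fun_prop) fun q prev g _ => ?_
  have := sz_append prev [mgv q.1 prev g]
  have := sz_nat_le_of_le (mgv_le q.1 prev g)
  simp only [sz_cons, sz_nil] at *
  omega

theorem cast_mgv (m : ℕ) (prev : List ℕ) (g : AGate) :
    (mgv m prev g : ZMod (m + 1)) =
      gv (fun _ => 0) (fun _ => 0) (prev.map fun n : ℕ => (n : ZMod (m + 1))) g := by
  have h := map_gv (Int.castRingHom (ZMod (m + 1))) (fun _ => 0) (fun _ => 0)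
    (prev.map fun n : ℕ => (n : ℤ)) g
  simp only [List.map_map, Function.comp_def, eq_intCast, Int.cast_zero, Int.cast_natCast] at h
  rw [← h, mgv]
  generalize gv (fun _ => (0 : ℤ)) (fun _ => 0) (prev.map fun n : ℕ => (n : ℤ)) g = z
  have h1 : 0 ≤ z % ((m + 1 : ℕ) : ℤ) := Int.emod_nonneg _ (by omega)
  rw [← Int.cast_natCast, Int.toNat_of_nonneg h1, ZMod.intCast_mod]

theorem mgvs_concat (m : ℕ) (c : List AGate) (g : AGate) :
    mgvs m (c ++ [g]) = mgvs m c ++ [mgv m (mgvs m c) g] := by
  simp [mgvs]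

theorem cast_mgvs (m : ℕ) (c : List AGate) :
    ((mgvs m c).map fun n : ℕ => (n : ZMod (m + 1))) = gvs (fun _ => 0) (fun _ => 0) c := by
  induction c using List.reverseRecOn with
  | nil => rfl
  | append_singleton c g ih =>
    rw [gvs_concat, mgvs_concat, List.map_append, ← ih, ← cast_mgv]; rfl

theorem mgvs_last_le (m : ℕ) (c : List AGate) : (mgvs m c).getLastD 0 ≤ m := by
  induction c using List.reverseRecOn with
  | nil => exact Nat.zero_le _
  | append_singleton c g _ => rw [mgvs_concat]; simpa using mgv_le _ _ _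

theorem val_cv (m : ℕ) (c : List AGate) :
    (cv (fun _ => (0 : ZMod (m + 1))) (fun _ => 0) c).val = (mgvs m c).getLastD 0 := by
  rw [cv, ← cast_mgvs, getLastD_map_zero (fun n : ℕ => (n : ZMod (m + 1))) Nat.cast_zero,
    ZMod.val_natCast, Nat.mod_eq_of_lt (Nat.lt_succ_of_le (mgvs_last_le m c))]

/-! ### The family of circuit polynomials -/

/-- The variables. -/
abbrev Var : Type := (Unit ⊕ ℕ) ⊕ ℕ

/-- The variable standing for `x_i`. -/
def vx (L : List ℕ) (i : ℕ) : Var := .inl (.inr (L.idxOf i))

/-- The variable standing for `y_i`. -/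
def vy (L : List ℕ) (i : ℕ) : Var := .inr (L.idxOf i)

/-- The polynomial of a circuit. -/
noncomputable def poly (L : List ℕ) (c : List AGate) : MvPolynomial Var ℤ :=
  cv (fun i => X (vx L i)) (fun i => X (vy L i)) c

theorem aeval_poly {K : Type} [CommRing K] (z : Var → K) (L : List ℕ) (c : List AGate) :
    aeval z (poly L c) = cv (fun i => z (vx L i)) (fun i => z (vy L i)) c := by
  have := map_cv (aeval z : MvPolynomial Var ℤ →ₐ[ℤ] K).toRingHom (fun i => X (vx L i))
    (fun i => X (vy L i)) c
  simpa [poly] using this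

/-- The variable read by a gate. -/
def varOf (L : List ℕ) : AGate → Var
  | .varX i => vx L i
  | .varY i => vy L i
  | _ => .inr 0

/-- Replace a variable gate by a constant. -/
def subv (n : ℕ) : AGate → AGate
  | .varX _ => .const n
  | .varY _ => .const n
  | g => g

theorem varOf_pt : PT fun q : List ℕ × AGate => varOf q.1 q.2 :=
  gate_cases (F := fun (q : List ℕ × AGate) g => varOf q.1 g) PT.id.snd
    (by simp only [varOf]; fun_prop) (by simp only [varOf, vx]; fun_prop)
    (by simp only [varOf, vy]; fun_prop) (by simp only [varOf]; fun_prop)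
    (by simp only [varOf]; fun_prop) (by simp only [varOf]; fun_prop)

theorem subv_pt : PT fun q : ℕ × AGate => subv q.1 q.2 := by
  have h : PT fun q : ℕ × AGate => gcode (subv q.1 q.2) :=
    gate_cases (F := fun (q : ℕ × AGate) g => gcode (subv q.1 g)) PT.id.snd
      (by simp only [subv, gcode]; fun_prop) (by simp only [subv, gcode]; fun_prop)
      (by simp only [subv, gcode]; fun_prop) (by simp only [subv, gcode]; fun_prop)
      (by simp only [subv, gcode]; fun_prop) (by simp only [subv, gcode]; fun_prop)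
  exact h.of_enc_eq fun _ => rfl

theorem ev_poly (m : ℕ) (x : Var → ℕ) (L : List ℕ) (c : List AGate) :
    ev (m + 1) x (poly L c) = (mgvs m (c.map fun g => subv (x (varOf L g)) g)).getLastD 0 := by
  rw [ev, aeval_poly, ← val_cv, cv, cv]
  congr 2
  refine (gvs_map _ _ _ _ _ c fun g _ prev => ?_).symm
  cases g <;> simp [subv, varOf, gv]

theorem poly_cls : Cls fun q : List ℕ × List AGate => poly q.1 q.2 := by
  refine ⟨fun q => sz q.2, by fun_prop, fun q => (small_cv _ _ _).1, fun q => (small_cv _ _ _).2,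
    fun β _ f p x hf hp hx hpp => ?_⟩
  have h1 : CF fun q : β × AGate => varOf (f q.1).1 q.2 :=
    CF.comp₂ varOf_pt (hf.comp CF.id.fst).fst CF.id.snd
  have h2 : CF fun q : β × AGate => x q.1 (varOf (f q.1).1 q.2) :=
    hx.comp_eq (fun q : β × AGate => (q.1, varOf (f q.1).1 q.2)) (CF.id.fst.pair h1)
  have h3 : CF fun e => (f e).2.map fun g => subv (x e (varOf (f e).1 g)) g :=
    CF.map hf.snd (CF.comp₂ subv_pt h2 CF.id.snd)
  have h4 : PT fun q : ℕ × List AGate => (mgvs q.1 q.2).getLastD 0 :=
    mgvs_pt.getLastD (PT.const 0)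
  refine (CF.comp₂ h4 (hp.nat_sub (CF.const 1)) h3).of_eq fun e => ?_
  have h5 := (hpp e).1.pos
  obtain ⟨m, hm⟩ : ∃ m, p e = m + 1 := ⟨p e - 1, by omega⟩
  simp only [hm, Nat.add_sub_cancel, ev_poly]

theorem poly_cls' {α : Type} [Enc α] {L : α → List ℕ} {c : α → List AGate} (hL : CF L)
    (hc : CF c) : Cls fun a => poly (L a) (c a) :=
  poly_cls.comp_eq (fun a => (L a, c a)) (hL.pair hc) fun _ => rfl

end Crest.Agent.R316.Syn
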